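import Vale.Agent.P354AS.Defs
import Vale.Agent.P354A.Est
import Vale.Agent.P354AY.Main

open scoped ContDiff
open MeasureTheory Set Filter Topology

namespace Vale.Agent.P354AS

open Vale.Agent.P354H Vale.Agent.P354C Vale.Agent.P354C.Ix Vale.Agent.P354A

/-- The commuted left side. -/
theorem ceq0 (k : ℝ) {K w : ℝ × X3 → Ix → ℝ} {n m : ℕ} {g lo hi : Ix → ℝ} {p : ℝ × X3}
    (hK : ∀ i, ContDiff ℝ ∞ (cmp K i)) (hw : ∀ i, ContDiff ℝ ∞ (cmp w i)) (hn : n ≤ 2 * m)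
    (hg : ∀ i, Pb (n + 1) (Ub k K i) p (g i)) (hlo : ∀ i, Pb m (cmp w i) p (lo i))
    (hhi : ∀ i, Pb n (cmp w i) p (hi i)) {α : List (Fin 3)} (hα : α.length ≤ n) (i : Ix) :
    |prin k ((K + w) p) (fun j => dxl α (cmp w j)) i p - dxl α (GG k K w i) p| ≤
      RB n i g lo hi := by
  rw [(GG_dxl (k := k) hK hw i α).2]
  have hg' : ∀ i, Pb n (Ub k K i) p (g i) := fun i => (hg i).mono n.le_succ le_rfl
  have b1 : |((lin i).map fun t => dxl α (Tl w t) p).sum| ≤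
      ((lin i).map fun t => |(t.1 : ℝ)| * hi t.2).sum := abs_list_le _ fun t _ => by
    unfold Tl
    rw [dxl_cmul α (hw _), abs_mul]
    exact mul_le_mul_of_nonneg_left (hhi _ α hα) (abs_nonneg _)
  have b2 : |((quad i).map fun t => dxl α (Tq k K w t) p).sum| ≤
      ((quad i).map fun t => 2 ^ n * (|(t.1 : ℝ)| * (g t.2.1 * hi t.2.2 + hi t.2.1 * g t.2.2 +
        lo t.2.1 * hi t.2.2 + hi t.2.1 * lo t.2.2))).sum := abs_list_le _ fun t _ => by
    have s1 := (ub_sm hK k t.2.1).mul (hw t.2.2)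
    have s2 := (hw t.2.1).mul (hw t.2.2)
    have s3 := (hw t.2.1).mul (ub_sm hK k t.2.2)
    have q1 := (hg' t.2.1).mul (hhi t.2.2) (ub_sm hK k _) (hw _) α hα
    have q2 := (hlo t.2.1).tame (hhi t.2.1) (hlo t.2.2) (hhi t.2.2) (hw _) (hw _) hn α hα
    have q3 := (hhi t.2.1).mul (hg' t.2.2) (hw _) (ub_sm hK k _) α hα
    unfold Tq
    rw [dxl_cmul α ((s1.add s2).add s3), dxl_add α (s1.add s2) s3, dxl_add α s1 s2, abs_mul,
      mul_left_comm]
    refine mul_le_mul_of_nonneg_left ?_ (abs_nonneg _)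
    refine ((abs_add_three _ _ _).trans (add_le_add (add_le_add q1 q2) q3)).trans (le_of_eq ?_)
    ring
  have b3 : |((fb i ++ fa i).map fun t => dxl α (To k K w t) p - t.1 * ((K + w) p t.2.1 *
      dx t.2.2.1 (dxl α (cmp w t.2.2.2)) p)).sum| ≤
      ((fb i ++ fa i).map fun t => 2 ^ n * (|(t.1 : ℝ)| * (g t.2.1 * hi t.2.2.2 +
        hi t.2.1 * g t.2.2.2 + lo t.2.1 * hi t.2.2.2 + hi t.2.1 * lo t.2.2.2))).sum :=
    abs_list_le _ fun t ht => by
      have s1 := (ub_sm hK k t.2.1).mul (Sm.dx (hw t.2.2.2) t.2.2.1)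
      have s2 := (hw t.2.1).mul (Sm.dx (hw t.2.2.2) t.2.2.1)
      have s3 := (hw t.2.1).mul ((ub_sm hK k t.2.2.2).dx t.2.2.1)
      have q1 := commu1 (hg' t.2.1) (hhi t.2.2.2) (ub_sm hK k _) (hw _) t.2.2.1 hα
      have q2 := commu2 (hlo t.2.1) (hhi t.2.1) (hlo t.2.2.2) (hhi t.2.2.2) (hw _) (hw _) hn
        t.2.2.1 hα
      have q3 := (hhi t.2.1).mul ((hg t.2.2.2).dx t.2.2.1) (hw _) ((ub_sm hK k _).dx _) α hα
      have e1 : dx t.2.2.1 (dxl α (cmp w t.2.2.2)) = dxl α (dx t.2.2.1 (cmp w t.2.2.2)) :=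
        (dxl_dv α (hw _) _).symm
      have e2 : (K + w) p t.2.1 = Ub k K t.2.1 p + cmp w t.2.1 p := by
        simp [Ub, P354A.cmp, U0_eq k (fo_ne i t ht)]
      unfold To
      rw [dxl_cmul α ((s1.add s2).add s3), dxl_add α (s1.add s2) s3, dxl_add α s1 s2, ← mul_sub,
        abs_mul, mul_left_comm, e1, e2]
      refine mul_le_mul_of_nonneg_left ?_ (abs_nonneg _)
      refine le_trans (le_of_eq (congrArg _ ?_)) (((abs_add_three _ _ _).trans
        (add_le_add (add_le_add q1 q2) q3)).trans (le_of_eq ?_))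
      · ring
      · ring
  have e3 := list_sub (fb i ++ fa i) (F := fun t => dxl α (To k K w t) p)
    (G := fun t => dxl α (To k K w t) p - t.1 * ((K + w) p t.2.1 *
      dx t.2.2.1 (dxl α (cmp w t.2.2.2)) p))
    (H := fun t => t.1 * ((K + w) p t.2.1 * dx t.2.2.1 (dxl α (cmp w t.2.2.2)) p))
    fun t _ => by ring
  have e4 := top_append (fb i) (fa i) ((K + w) p) (fun j => dxl α (cmp w j)) p
  rw [List.sum_map_mul_left] at b2 b3
  have e5 : RB n i g lo hi = ((lin i).map fun t => |(t.1 : ℝ)| * hi t.2).sum +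
      2 ^ n * ((quad i).map fun t => |(t.1 : ℝ)| * (g t.2.1 * hi t.2.2 + hi t.2.1 * g t.2.2 +
        lo t.2.1 * hi t.2.2 + hi t.2.1 * lo t.2.2)).sum +
      2 ^ n * ((fb i ++ fa i).map fun t => |(t.1 : ℝ)| * (g t.2.1 * hi t.2.2.2 +
        hi t.2.1 * g t.2.2.2 + lo t.2.1 * hi t.2.2.2 + hi t.2.1 * lo t.2.2.2)).sum := by
    simp only [RB, pairs, List.map_append, List.sum_append, List.map_map, Function.comp_def]
    ring
  rw [e5]
  have e6 : top (fb i ++ fa i) ((K + w) p) (fun j => dxl α (cmp w j)) p =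
      ((fb i ++ fa i).map fun t => (t.1 : ℝ) * ((K + w) p t.2.1 *
        dx t.2.2.1 (dxl α (cmp w t.2.2.2)) p)).sum := rfl
  unfold prin
  rw [abs_le] at b1 b2 b3 ⊢
  constructor <;> linarith [b1.1, b1.2, b2.1, b2.2, b3.1, b3.2]

/-- The commuted equation with a source. -/
theorem ceqS (k : ℝ) {T : ℝ} {K f w : ℝ × X3 → Ix → ℝ} {n m : ℕ} {g lo hi : Ix → ℝ} {p : ℝ × X3}
    (hK : ∀ i, ContDiff ℝ ∞ (cmp K i)) (hf : ∀ i, ContDiff ℝ ∞ (cmp f i)) (hS : SolS K f w T)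
    (hp : p.1 ∈ Icc 0 T) (hn : n ≤ 2 * m)
    (hg : ∀ i, Pb (n + 1) (Ub k K i) p (g i)) (hlo : ∀ i, Pb m (cmp w i) p (lo i))
    (hhi : ∀ i, Pb n (cmp w i) p (hi i)) {α : List (Fin 3)} (hα : α.length ≤ n) (i : Ix) :
    |prin k ((K + w) p) (fun j => dxl α (cmp w j)) i p + dxl α (cmp f i) p| ≤ RB n i g lo hi := by
  have sG := (GG_dxl (k := k) hK hS.sm i α).1
  have z := dxl_of_zero (p := p) α (sG.add (hf i)) fun x => by
    have := hS.eq (p.1, x) hp i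
    rw [res_diff k hK hS.sm] at this
    show GG k K w i (p.1, x) + f (p.1, x) i = 0
    linarith
  rw [dxl_add α sG (hf i)] at z
  have := ceq0 k hK hS.sm hn hg hlo hhi hα i
  rwa [show dxl α (GG k K w i) p = -dxl α (cmp f i) p by linarith, sub_neg_eq_add] at this

/-- The barrier B of the unknown i beats the sources at (t, x). -/
def BeatsS (k : ℝ) (n : ℕ) (i : Ix) (B : ℝ → ℝ → ℝ) (g lo H : Ix → ℝ) (s t x : ℝ) : Prop :=
  ∃ B', HasDerivAt (fun s : ℝ => B (t + c0 i * s) (x + c1 i * s)) B' 0 ∧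
    RB n i g lo lo + AB i g lo H + s < B' + dmp i * (k / 2) * B t x

/-- The barrier argument with a source. -/
theorem barS (k T : ℝ) (K f w : ℝ × X3 → Ix → ℝ) (n : ℕ) (act : Ix → Prop)
    (g lo H : Ix → ℝ → ℝ → ℝ) (s : ℝ → ℝ → ℝ) (hK : ∀ i, ContDiff ℝ ∞ (cmp K i))
    (hf : ∀ i, ContDiff ℝ ∞ (cmp f i)) (hS : SolS K f w T)
    (hg : ∀ p : ℝ × X3, p.1 ∈ Icc 0 T → ∀ i, Pb (n + 1) (Ub k K i) p (g i p.1 p.2.1))
    (hs : ∀ p : ℝ × X3, p.1 ∈ Icc 0 T → ∀ i, Pb n (cmp f i) p (s p.1 p.2.1))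
    (hB : ∀ i, act i → Continuous (fun q : ℝ × ℝ => lo i q.1 q.2) ∧
      ∀ t ∈ Icc 0 T, ∀ x, 0 < lo i t x ∧ BeatsS k n i (lo i) (fun j => g j t x)
        (fun j => lo j t x) (fun j => H j t x) (s t x) t x)
    (h0 : ∀ i, act i → ∀ α : List (Fin 3), α.length ≤ n → ∀ x,
      |dxl α (cmp w i) (0, x)| < lo i 0 x.1)
    (hboot : ∀ t ∈ Icc 0 T,
      (∀ p : ℝ × X3, p.1 ∈ Icc 0 t → ∀ i, act i → Pb n (cmp w i) p (lo i p.1 p.2.1)) →
      ∀ x i, Pb n (cmp w i) (t, x) (lo i t x.1) ∧ Pb (n + 1) (cmp w i) (t, x) (H i t x.1)) :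
    ∀ p : ℝ × X3, p.1 ∈ Icc 0 T → ∀ i, act i → Pb n (cmp w i) p (lo i p.1 p.2.1) := by
  intro p hp i hi α hα
  have hw := hS.sm
  have : Finite {α : List (Fin 3) // α.length ≤ n} := (List.finite_length_le (Fin 3) n).to_subtype
  refine (touch (M := {i // act i} × {α : List (Fin 3) // α.length ≤ n})
    (z := fun m => dxl m.2.1 (cmp w m.1.1)) (B := fun m p => lo m.1.1 p.1 p.2.1) (T := T)
    (fun m => (dxl_sm _ (hw _)).continuous) (fun m => dxl_cs _ (hS.cs _))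
    (fun m => (hB _ m.1.2).1.comp (f := fun p : ℝ × X3 => (p.1, p.2.1)) (by fun_prop))
    (fun m p h => ((hB _ m.1.2).2 _ h _).1) (fun m x => h0 _ m.1.2 _ m.2.2 x) ?_
    (⟨i, hi⟩, ⟨α, hα⟩) p hp).le
  clear hi hα hp i α p
  rintro t ht hle ⟨⟨i, hi⟩, ⟨α, hα⟩⟩ x heq
  have ht' : t ∈ Icc 0 T := Ioc_subset_Icc_self ht
  have hb := hboot t ht' (fun p h j hj β hβ => hle (⟨j, hj⟩, ⟨β, hβ⟩) p h) x
  obtain ⟨pos, B', hd, hlt⟩ := (hB i hi).2 t ht' x.1
  have q1 := ceqS k (g := fun j => g j t x.1) (p := (t, x)) hK hf hS ht' (by omega)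
    (hg (t, x) ht') (fun j => (hb j).1) (fun j => (hb j).1) hα i
  have q0 := abs_le.1 (hs (t, x) ht' i α hα)
  have q2 := top_fa_le (fun j => (hg (t, x) ht' j).zero) (fun j => (hb j).1.zero)
    (fun j => (hb j).2) hα i
  have q3 := line_der (dxl_sm α (hw i)) (t, x) (c0 i) (c1 i) (cL i * (K + w) (t, x) b1)
    (cL i * (K + w) (t, x) b2)
  have hc := c0_mem i
  have hm : ∀ s ∈ Ioo (-(t / 2)) 0, |dxl α (cmp w i) ((t, x) + s • ((c0 i : ℝ), (c1 i : ℝ),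
      cL i * (K + w) (t, x) b1, cL i * (K + w) (t, x) b2))| ≤
      lo i (t + c0 i * s) (x.1 + c1 i * s) := fun s hs => by
    have := hle (⟨i, hi⟩, ⟨α, hα⟩) ((t, x) + s • ((c0 i : ℝ), (c1 i : ℝ),
      cL i * (K + w) (t, x) b1, cL i * (K + w) (t, x) b2)) (by
        simp only [Prod.fst_add, Prod.smul_fst, smul_eq_mul]
        constructor <;> nlinarith [hs.1, hs.2, hc.1, hc.2])
    simpa only [Prod.fst_add, Prod.smul_fst, smul_eq_mul, Prod.snd_add, Prod.smul_snd,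
      mul_comm s] using this
  have e1 : top (fb i) ((K + w) (t, x)) (fun j => dxl α (cmp w j)) (t, x) =
      cL i * (K + w) (t, x) b1 * dx 1 (dxl α (cmp w i)) (t, x) +
        cL i * (K + w) (t, x) b2 * dx 2 (dxl α (cmp w i)) (t, x) := by
    simp only [top, fb, List.map_cons, List.sum_cons, List.map_nil, List.sum_nil]
    ring
  unfold prin at q1
  rw [e1, abs_le] at q1
  rw [abs_le] at q2
  dsimp only at q0 q1 q2
  change |dxl α (cmp w i) (t, x)| = lo i t x.1 at heq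
  have t2 : 0 < t / 2 := half_pos ht.1
  rcases (abs_eq pos.le).1 heq with h | h
  · have := deriv_nn (q3.sub hd) t2 fun s hs => by
      have := (abs_le.1 (hm s hs)).2
      simp only [Pi.sub_apply, zero_smul, add_zero, mul_zero, h]
      linarith
    rw [h] at q1
    linarith [q1.2, q2.1, q0.1]
  · have := deriv_nn (q3.neg.sub hd) t2 fun s hs => by
      have := (abs_le.1 (hm s hs)).1
      simp only [Pi.sub_apply, Pi.neg_apply, zero_smul, add_zero, mul_zero, h]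
      linarith
    rw [h] at q1
    linarith [q1.1, q2.2, q0.2]

open Vale.Agent.P354AY in
/-- The same numbers with half of the rates. -/
noncomputable def half (N : Nu) : Nu := { N with κ := N.κ / 2, μ := N.μ / 2 }

open Vale.Agent.P354AY in
theorem half_ok {N : Nu} (h : N.OK) : (half N).OK :=
  { h with
    μ0 := half_pos h.μ0
    μ1 := by have := h.μ1; have := h.μ0; simp only [half]; linarith
    μκ := by have := h.μκ; simp only [half]; linarith }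

open Vale.Agent.P354AY in
theorem half_sy {N : Nu} (h : N.OK) (c : Cl) :
    (half N).sy c + N.μ / 2 * (N.ω ^ 9 * N.ax) ≤ N.sy c := by
  have h1 := h.pwx1 (n := 9) (by norm_num)
  have h2 := h.pwx (m := 2) (n := 9) (by norm_num)
  have h4 := h.pwx (m := 4) (n := 9) (by norm_num)
  have p0 : 0 ≤ N.ω ^ 9 * N.ax := (mul_pos (pow_pos h.ω0 9) h.x0).le
  have p1 := mul_le_mul_of_nonneg_right h.μκ p0
  have hκ : 0 ≤ N.κ := h.μ0.le.trans h.μκ
  have q1 := mul_le_mul_of_nonneg_left h.xv h.ω0.le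
  have q2 := mul_le_mul_of_nonneg_left h.xu h.ω0.le
  have k : ∀ y, N.ω ^ 9 * N.ax ≤ y → N.μ * (N.ω ^ 9 * N.ax) ≤ N.κ * y ∧ 0 ≤ N.κ * y :=
    fun y hy => ⟨p1.trans (mul_le_mul_of_nonneg_left hy hκ), mul_nonneg hκ (p0.trans hy)⟩
  have puv := mul_pos h.u0 h.v0
  cases c <;> simp only [Nu.sy, Nu.yb, half]
  · linarith [(k (N.ω * N.av) (by linarith)).1]
  · linarith [k N.av (h1.trans h.xv)]
  · linarith [(k (N.ω * N.au) (by linarith)).1]
  · linarith [k N.au (h1.trans h.xu)]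
  · linarith [k (N.au * N.av + N.ω ^ 2 * N.ax) (by linarith)]
  · linarith [k _ h2]
  · linarith [k _ h4]

open Vale.Agent.P354AY in
theorem half_sz {N : Nu} (h : N.OK) (i : Ix) :
    (half N).sz i + N.μ / 2 * (N.ω ^ 9 * N.ax) ≤ N.sz i := by
  have h1 : N.ω ^ 9 * N.ax ≤ N.ω ^ 8 * (N.at (tv i) + N.ω) := by
    have := mul_le_of_le_one_right (pow_pos h.ω0 9).le h.x1
    have := mul_pos (pow_pos h.ω0 8) (h.at_pos (tv i))
    linarith
  have h2 := mul_le_mul_of_nonneg_left h1 h.μ0.le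
  show N.μ / 2 * (N.ω ^ 8 * (N.at (tv i) + N.ω)) + _ ≤ N.μ * (N.ω ^ 8 * (N.at (tv i) + N.ω))
  linarith

open Vale.Agent.P354AY in
/-- The barriers of both passes beat the sources. -/
theorem yzinS (k : ℝ) (a A : ℝ → ℝ) (A0 CX : ℝ) (n : ℕ) (hk : 0 < k) (h : Wt k a A A0)
    (hC : 0 < CX) : ∃ Λ η ε0 c : ℝ, 1 ≤ Λ ∧ 0 < η ∧ 0 < ε0 ∧ 0 < c ∧ ∀ ε, 0 < ε → ε ≤ ε0 →
      ∀ t x : ℝ, 0 ≤ t → ∀ i,
      BeatsS k (n + 1) i (fun t x => ε * amp Λ i * barY k a A (cls i) t x) (fun j => gB k η j t)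
        (fun j => ε * amp Λ j * barY k a A (cls j) t x)
        (fun _ => CX * ε * (ex k (-1) t * a x)) (c * ε * (ex k 9 t * a x)) t x ∧
      (odd i → BeatsS k n i (fun t x => ε * amp Λ i * barZ k a A i t x) (fun j => gB k η j t)
        (fun j => ε * amp Λ j * barZ k a A j t x)
        (fun j => ε * amp Λ j * barY k a A (cls j) t x) (c * ε * (ex k 9 t * a x)) t x) := by
  have h0 := nu_ok (x := 0) hk h le_rfl
  have hμ : 0 < min 1 (k / 16) / 2 := half_pos h0.μ0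
  have hG : 0 < 2 + A0 := h0.G0
  obtain ⟨Λ, hΛ⟩ : ∃ Λ, Λ = 400 * (2 + A0) / (min 1 (k / 16) / 2) := ⟨_, rfl⟩
  have hΛ0 : 0 < Λ := by rw [hΛ]; positivity
  obtain ⟨θ, θ0, θ1, θ2⟩ : ∃ θ, 0 < θ ∧ 1600 * 2 ^ (n + 1) * (Λ * (2 + A0)) ^ 2 * θ ≤
      min 1 (k / 16) / 2 ∧ 800 * Λ * CX * θ ≤ min 1 (k / 16) / 2 :=
    ⟨min (min 1 (k / 16) / 2 / (1600 * 2 ^ (n + 1) * (Λ * (2 + A0)) ^ 2))
      (min 1 (k / 16) / 2 / (800 * Λ * CX)), by positivity,
      (le_div_iff₀' (by positivity)).1 (min_le_left _ _),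
      (le_div_iff₀' (by positivity)).1 (min_le_right _ _)⟩
  have par : ∀ t x ε, 0 < ε → ε ≤ θ → Par (half (nu k a A A0 t x)) (n + 1) Λ θ ε CX :=
    fun t x ε h1 h2 => ⟨by
      have := h0.μ0.ne'
      simp only [half, nu, hΛ] at this ⊢
      field_simp, h1, h2, hC, θ1, θ2⟩
  have e9 : ∀ t, ex k 9 t = ex k 1 t ^ 9 := fun t => by simpa using ex_nat k t 9
  refine ⟨Λ, θ, θ, min 1 (k / 16) / 2, (par 0 0 θ θ0 le_rfl).Λ1 (half_ok h0), θ0, θ0, hμ,
    fun ε h1 h2 t x ht i => ?_⟩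
  have ok := nu_ok (x := x) hk h ht
  have ha := (amp_le ((par t x ε h1 h2).Λ1 (half_ok ok)) i).1
  have hs : min 1 (k / 16) / 2 * ε * (ex k 9 t * a x) ≤ ε * amp Λ i *
      ((nu k a A A0 t x).μ / 2 * ((nu k a A A0 t x).ω ^ 9 * (nu k a A A0 t x).ax)) := by
    have p : 0 ≤ ε * (min 1 (k / 16) / 2 * (ex k 1 t ^ 9 * a x)) := by
      have := h.pos x
      have := P354A.ex_pos k 1 t
      positivity
    have := mul_le_mul_of_nonneg_right ha p
    rw [e9]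
    simp only [nu]
    linarith
  refine ⟨?_, fun hi => ?_⟩
  · obtain ⟨B', d, b⟩ := derY (t := t) (x := x) hk h i
    refine ⟨_, d.const_mul (ε * amp Λ i), ?_⟩
    simp only [barY_eq (A0 := A0), gB_eq k a A A0 t x, ex_neg]
    have q := finY (half_ok ok) (par t x ε h1 h2) i
    have q2 := mul_le_mul_of_nonneg_left ((half_sy ok (cls i)).trans b)
      (show 0 ≤ ε * amp Λ i by positivity)
    exact (add_lt_add_of_lt_of_le q hs).trans_le (by linarith)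
  · obtain ⟨B', d, b⟩ := derZ (t := t) (x := x) hk h hi
    refine ⟨_, d.const_mul (ε * amp Λ i), ?_⟩
    simp only [barY_eq (A0 := A0), barZ_eq (A0 := A0), gB_eq k a A A0 t x]
    have q := finZ (half_ok ok) (par t x ε h1 h2).low hi
    have q2 := mul_le_mul_of_nonneg_left ((half_sz ok i).trans b)
      (show 0 ≤ ε * amp Λ i by positivity)
    exact (add_lt_add_of_lt_of_le q hs).trans_le (by linarith)

end Vale.Agent.P354AS
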