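import Vale.Agent.P354A.Defs

open scoped ContDiff
open MeasureTheory Set

namespace Vale.Agent.P354AS

open Vale.Agent.P354H Vale.Agent.P354C Vale.Agent.P354A

/-- The equation with a source f for the perturbation w of the background K at p. For
f = res K it says that K + w solves the reduced system. -/
def EqnS (K f w : ℝ × X3 → Ix → ℝ) (p : ℝ × X3) : Prop :=
  ∀ i, res ((K + w) p) (dfr (K + w) p) i = res (K p) (dfr K p) i - f p i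

/-- A smooth solution with compact support on the strip 0 ≤ tau ≤ T. -/
structure SolS (K f w : ℝ × X3 → Ix → ℝ) (T : ℝ) : Prop where
  sm : ∀ i, ContDiff ℝ ∞ (cmp w i)
  cs : ∀ i, HasCompactSupport (cmp w i)
  eq : ∀ p : ℝ × X3, p.1 ∈ Icc 0 T → EqnS K f w p

/-- A small source: O(exp (-9 k tau / 16) a(x)), supported in a cube of the angular variables. -/
structure Src (k : ℝ) (a : ℝ → ℝ) (r ε : ℝ) (n : ℕ) (f : ℝ × X3 → Ix → ℝ) : Prop where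
  sm : ∀ i, ContDiff ℝ ∞ (cmp f i)
  bd : ∀ i (p : ℝ × X3), 0 ≤ p.1 → Pb n (cmp f i) p (ε * (ex k 9 p.1 * a p.2.1))
  supp : ∀ p : ℝ × X3, r < |p.2.2.1| ∨ r < |p.2.2.2| → f p = 0

/-- The a priori estimates with a source. -/
def ESTS : Prop :=
  ∀ (k : ℝ) (a A : ℝ → ℝ) (A0 r : ℝ) (J : ℕ), 0 < k → Wt k a A A0 → 3 ≤ J →
    ∃ η ε0 C : ℝ, 0 < η ∧ 0 < ε0 ∧ 0 < C ∧ ∀ (K f w : ℝ × X3 → Ix → ℝ) (T ε : ℝ),
      Bg k η (J + 6) K → 0 < ε → ε ≤ ε0 → Src k a r ε (J + 5) f → SolS K f w T →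
      Dat a r ε (J + 5) (sl w 0) →
      (∀ p : ℝ × X3, p.1 ∈ Icc 0 T → Out k a (C * ε) J w p) ∧
      ∀ R, (∀ i, Hk (J + 5) (cmp (sl w 0) i) R) →
        ∀ t ∈ Icc 0 T, ∀ i, Hk (J + 5) (cmp (sl w t) i) (C * Real.exp (k * t) * (R + 1))

/-- Global existence with a source which vanishes for large |x|. -/
def EXISTS : Prop :=
  ∀ (k : ℝ) (a A : ℝ → ℝ) (A0 r : ℝ) (J : ℕ), 0 < k → Wt k a A A0 → 3 ≤ J →
    ∃ η ε0 C : ℝ, 0 < η ∧ 0 < ε0 ∧ 0 < C ∧ ∀ (Cb : ℕ → ℝ) (R : ℝ), ∃ δ c : ℝ, 0 < δ ∧ δ ≤ 1 ∧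
      ∀ (K f : ℝ × X3 → Ix → ℝ) (w0 : X3 → Ix → ℝ) (ε : ℝ), Bg k η (J + 6) K →
        (∀ m, ∀ t ∈ Icc (-1 : ℝ) 1, ∀ i, Sb m (cmp (sl K t) i) (Cb m) ∧
          Sb m (fun x => (1 + x.1 ^ 2) * f (t, x) i) (Cb m)) →
        (∀ T : ℝ, ∃ C' : ℕ → ℝ, ∀ m, ∀ t ∈ Icc (-1) T, ∀ i, Sb m (cmp (sl K t) i) (C' m)) →
        0 < ε → ε ≤ ε0 → Src k a r ε (J + 5) f → (∃ N, ∀ p : ℝ × X3, N < |p.2.1| → f p = 0) →
        (∀ i, Good (cmp w0 i)) → Dat a r ε (J + 5) w0 → (∀ i, Hk 8 (cmp w0 i) R) →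
        ∃ w : ℝ × X3 → Ix → ℝ, (∀ i, ContDiff ℝ ∞ (cmp w i)) ∧ sl w 0 = w0 ∧
          (∀ p : ℝ × X3, -δ ≤ p.1 → EqnS K f w p) ∧
          (∀ p : ℝ × X3, p.1 ∈ Icc (-δ) 0 → ∀ i, |w p i| ≤ c) ∧
          (∀ p : ℝ × X3, 0 ≤ p.1 → Out k a (C * ε) J w p) ∧
          ∀ T, ∃ w', SolS K f w' T ∧ ∀ p : ℝ × X3, p.1 < T + 1 → w' p = w p

end Vale.Agent.P354AS
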