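import Vale.Agent.P354AS.Xpt

open scoped ContDiff
open MeasureTheory Set Filter Topology

namespace Vale.Agent.P354AS

open Vale.Agent.P354H Vale.Agent.P354C Vale.Agent.P354C.Ix Vale.Agent.P354A

theorem SolS.mono {K f w : ℝ × X3 → Ix → ℝ} {T t : ℝ} (h : SolS K f w T) (ht : t ≤ T) :
    SolS K f w t :=
  ⟨h.sm, h.cs, fun p hp => h.eq p ⟨hp.1, hp.2.trans ht⟩⟩

/-- The a priori estimates with a source. -/
theorem ests : ESTS := by
  intro k a A A0 r J hk hW hJ
  obtain ⟨θ, CX, hθ, hCX, HX⟩ := xptS k a A A0 r (J + 1) hk hW (by omega)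
  obtain ⟨Λ, η, ε1, c, hΛ, hη, hε1, hc, HY⟩ := yzinS k a A A0 CX J hk hW hCX
  obtain ⟨M, hM, hMc⟩ : ∃ M : ℝ, 2 ≤ M ∧ 1 ≤ c * M := ⟨2 + 1 / c,
    le_add_of_nonneg_right (by positivity), by
      rw [mul_add, mul_one_div_cancel hc.ne']
      linarith⟩
  have hM0 : 0 < M := by linarith
  have hA : 0 < 2 + A0 := by linarith [hW.A0_nn]
  have hL : 0 < Λ * (2 + A0) := mul_pos (by linarith) hA
  refine ⟨min η θ, min 1 (min (ε1 / M) (θ / (2 * M * (Λ * (2 + A0))))), CX + M * (Λ * (2 + A0)),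
    lt_min hη hθ, lt_min one_pos (lt_min (by positivity) (by positivity)), by positivity, ?_⟩
  intro K f w T ε hK hε hε0 hf hS hD
  have hK1 := hK.mono (min_le_left η θ)
  have hK2 := hK.mono (min_le_right η θ)
  have he0 : ε ≤ 1 := hε0.trans (min_le_left _ _)
  have he1 : M * ε ≤ ε1 :=
    (le_div_iff₀' hM0).1 (hε0.trans ((min_le_right _ _).trans (min_le_left _ _)))
  have he2 : ε * (2 * M * (Λ * (2 + A0))) ≤ θ :=
    (le_div_iff₀ (by positivity)).1 (hε0.trans ((min_le_right _ _).trans (min_le_right _ _)))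
  have hs : ∀ n, n ≤ J + 5 → ∀ p : ℝ × X3, p.1 ∈ Icc 0 T → ∀ i,
      Pb n (cmp f i) p (c * (M * ε) * (ex k 9 p.1 * a p.2.1)) := fun n hn p hp i =>
    (hf.bd i p hp.1).mono hn (mul_le_mul_of_nonneg_right
      (by nlinarith [mul_le_mul_of_nonneg_right hMc hε.le])
      (mul_pos (ex_pos _ _ _) (hW.pos _)).le)
  have up : ∀ i {b c : ℝ}, 0 ≤ b → b ≤ (2 + A0) * c →
      M * ε * amp Λ i * b ≤ M * (Λ * (2 + A0)) * ε * c := fun i b c hb hc =>
    (mul_le_mul (mul_le_mul_of_nonneg_left (amp_mem hΛ i).2 (by positivity)) hc hb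
      (by positivity)).trans (le_of_eq (by ring))
  have small : ∀ i (t x : ℝ), 0 ≤ t → M * ε * amp Λ i * barY k a A (cls i) t x ≤ θ :=
    fun i t x ht => by
      have b1 := bY_mem hk hW (cls i) ht x
      have b2 := barY_mem hk hW (cls i) ht x
      refine (up i (b1.1.le.trans b2.1) b2.2).trans ?_
      have := mul_le_mul_of_nonneg_left b1.2 (show 0 ≤ M * (Λ * (2 + A0)) * ε by positivity)
      linarith
  have lt0 : ∀ i (x : ℝ) {b : ℝ}, a x ≤ b → ε * a x < M * ε * amp Λ i * b := fun i x b hb => by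
    have p := mul_pos hε (hW.pos x)
    have q := mul_le_mul (amp_mem hΛ i).1 hb (hW.pos x).le (by linarith [(amp_mem hΛ i).1])
    have := mul_le_mul_of_nonneg_left q (show 0 ≤ M * ε by positivity)
    have := mul_le_mul_of_nonneg_right hM p.le
    linarith
  have pos : ∀ i {b : ℝ}, 0 < b → 0 < M * ε * amp Λ i * b := fun i b hb =>
    mul_pos (mul_pos (by positivity) (by linarith [(amp_mem hΛ i).1])) hb
  have hY : ∀ p : ℝ × X3, p.1 ∈ Icc 0 T → ∀ i, Pb (J + 1) (cmp w i) p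
      (M * ε * amp Λ i * barY k a A (cls i) p.1 p.2.1) := fun p hp i => by
    refine barS k T K f w (J + 1) (fun _ => True) (fun i t _ => gB k η i t)
      (fun i t x => M * ε * amp Λ i * barY k a A (cls i) t x)
      (fun _ t x => CX * (M * ε) * (ex k (-1) t * a x))
      (fun t x => c * (M * ε) * (ex k 9 t * a x)) hK.sm hf.sm hS
      (fun p hp i => (hK1.bd i p hp.1).mono (by omega) le_rfl) (hs _ (by omega))
      (fun i _ => ⟨continuous_const.mul (barY_cont hW _), fun t ht x =>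
        ⟨pos i ((bY_mem hk hW _ ht.1 x).1.trans_le (barY_mem hk hW _ ht.1 x).1),
          (HY (M * ε) (by positivity) he1 t x ht.1 i).1⟩⟩)
      (fun i _ α hα x => (hD.init hS.sm i (by omega) x).trans_lt
        (lt0 i _ ((bY_zero hW _ _).trans (barY_mem hk hW _ le_rfl _).1)))
      (fun t ht hb x i => ⟨hb (t, x) ⟨ht.1, le_rfl⟩ i trivial, ?_⟩) p hp i trivial
    refine ((HX K f w t ε hK2 (hS.mono ht.2) (fun p hp i => (hb p hp i trivial).mono le_rfl
      (small i _ _ hp.1)) hε.le hf).1 hD (t, x) ⟨ht.1, le_rfl⟩ i).mono le_rfl ?_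
    exact mul_le_mul_of_nonneg_right (mul_le_mul_of_nonneg_left (by nlinarith) hCX.le)
      (mul_pos (ex_pos _ _ _) (hW.pos _)).le
  have hZ : ∀ p : ℝ × X3, p.1 ∈ Icc 0 T → ∀ i, odd i → Pb J (cmp w i) p
      (M * ε * amp Λ i * barZ k a A i p.1 p.2.1) := by
    refine barS k T K f w J (fun i => odd i) (fun i t _ => gB k η i t)
      (fun i t x => M * ε * amp Λ i * barZ k a A i t x)
      (fun i t x => M * ε * amp Λ i * barY k a A (cls i) t x)
      (fun t x => c * (M * ε) * (ex k 9 t * a x)) hK.sm hf.sm hS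
      (fun p hp i => (hK1.bd i p hp.1).mono (by omega) le_rfl) (hs _ (by omega))
      (fun i hi => ⟨continuous_const.mul (barZ_cont hW _), fun t ht x =>
        ⟨pos i ((bZ_pos hW i t x).trans_le (barZ_mem hk hW hi ht.1 x).1),
          (HY (M * ε) (by positivity) he1 t x ht.1 i).2 hi⟩⟩)
      (fun i hi α hα x => (hD.init hS.sm i (by omega) x).trans_lt
        (lt0 i _ (((hW.le _).trans (bZ_zero hW i _)).trans (barZ_mem hk hW hi le_rfl _).1)))
      (fun t ht hb x i => ⟨?_, hY (t, x) ht i⟩)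
    by_cases hi : odd i
    · exact hb (t, x) ⟨ht.1, le_rfl⟩ i hi
    · simp only [barZ, if_neg hi]
      exact (hY (t, x) ht i).mono J.le_succ le_rfl
  have hXX := HX K f w T ε hK2 hS (fun p hp i => (hY p hp i).mono le_rfl (small i _ _ hp.1))
    hε.le hf
  have hML : 0 < M * (Λ * (2 + A0)) := by positivity
  have m1 : ∀ {c : ℝ}, 0 ≤ c → CX * ε * c ≤ (CX + M * (Λ * (2 + A0))) * ε * c := fun hc =>
    mul_le_mul_of_nonneg_right (mul_le_mul_of_nonneg_right (by linarith) hε.le) hc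
  have m2 : ∀ {c : ℝ}, 0 ≤ c → M * (Λ * (2 + A0)) * ε * c ≤ (CX + M * (Λ * (2 + A0))) * ε * c :=
    fun hc => mul_le_mul_of_nonneg_right (mul_le_mul_of_nonneg_right (by linarith) hε.le) hc
  refine ⟨fun p hp => ⟨fun i => (hXX.1 hD p hp i).mono le_rfl
    (m1 (mul_pos (ex_pos _ _ _) (hW.pos _)).le), fun i => ?_, fun i hi => ?_⟩,
    fun R hR t ht i α hα => (hXX.2 he0 R hR t ht i α hα).trans ?_⟩
  · have b1 := bY_mem hk hW (cls i) hp.1 p.2.1
    have b2 := barY_mem hk hW (cls i) hp.1 p.2.1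
    exact (hY p hp i).mono le_rfl ((up i (b1.1.le.trans b2.1) b2.2).trans (m2 b1.1.le))
  · have b1 := bZ_pos (k := k) hW i p.1 p.2.1
    have b2 := barZ_mem hk hW hi hp.1 p.2.1
    exact (hZ p hp i hi).mono le_rfl ((up i (b1.le.trans b2.1) b2.2).trans (m2 b1.le))
  · have hR0 : 0 ≤ R := (integral_nonneg fun _ => sq_nonneg _).trans (hR i [] (Nat.zero_le _))
    exact mul_le_mul_of_nonneg_right (mul_le_mul_of_nonneg_right (by linarith)
      (Real.exp_pos _).le) (by linarith)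

end Vale.Agent.P354AS
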