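import Vale.Agent.P354AS.Est
import Vale.Agent.P354AE.Solve
import Vale.Agent.P354I.Core2

open scoped ContDiff
open MeasureTheory Set Filter Topology

namespace Vale.Agent.P354AS

open Vale.Agent.P354H Vale.Agent.P354C Vale.Agent.P354A Vale.Agent.P354I Vale.Agent.P354AE
open Vale.Agent.P354X (maj maj_int maj_nn tsupp_pdl pdl_sl wt_le)

theorem cx_out {n : ℕ} {x : ℝ} (h : (n : ℝ) + 1 < |x|) : cx n x = 0 := by
  unfold cx
  rcases lt_abs.1 h with h | h
  · rw [Real.smoothTransition.zero_of_nonpos (x := n + 1 - x) (by linarith), zero_mul]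
  · rw [Real.smoothTransition.zero_of_nonpos (x := n + 1 + x) (by linarith), mul_zero]

theorem cx_in {n : ℕ} {x : ℝ} (h : |x| ≤ n) : cx n x = 1 := by
  unfold cx
  rw [abs_le] at h
  rw [Real.smoothTransition.one_of_one_le (by linarith),
    Real.smoothTransition.one_of_one_le (by linarith), one_mul]

theorem sb_mul {k : ℕ} {f g : X3 → ℝ} {s d : ℝ} (hf : ContDiff ℝ ∞ f) (hg : ContDiff ℝ ∞ g)
    (h : Sb k f s) (h' : Sb k g d) : Sb k (fun z => f z * g z) (2 ^ k * (s * d)) :=
  fun α hα x => (pt_mul hf hg h (fun β hβ => h' β hβ x) α hα).trans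
    (mul_le_mul_of_nonneg_right (pow_mono2 hα) (mul_nonneg h.nonneg h'.nonneg))

/-- The factor 1 + x ^ 2, cut off outside the support of the source for short times. -/
theorem sb_sq (m : ℕ) : ∃ c, Sb m (fun z : X3 => (1 + z.1 ^ 2) * cx 2 z.1) c :=
  sb_cs m (f := fun y => (1 + y ^ 2) * cx 2 y)
    ((contDiff_const.add (contDiff_id.pow 2)).mul
      ((Real.smoothTransition.contDiff.comp (contDiff_const.sub contDiff_id)).mul
        (Real.smoothTransition.contDiff.comp (contDiff_const.add contDiff_id))))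
    (HasCompactSupport.intro (isCompact_closedBall 0 ((2 : ℕ) + 1)) fun y hy => by
      rw [mem_closedBall_zero_iff, Real.norm_eq_abs, not_le] at hy
      rw [cx_out hy, mul_zero])

/-- The source is bounded by the weight. -/
theorem src_pt {k ε A0 t : ℝ} {a A : ℝ → ℝ} {g : X3 → ℝ} {n : ℕ} (hk : 0 < k) (ha : Wt k a A A0)
    (ht : 0 ≤ t) (hε : 0 ≤ ε) (h : Sb n g (ε * Real.exp (-k * t)))
    (hs : ∀ z : X3, t + 1 ≤ |z.1| → g z = 0) (α : List (Fin 3)) (hα : α.length ≤ n) (z : X3) :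
    |pdl α g z| ≤ Real.exp (k / 64) / a 0 * ε * (ex k 9 t * a z.1) := by
  have p0 := ha.pos 0
  have p1 := ha.pos z.1
  have p2 := ex_pos k 9 t
  by_cases hz : |z.1| ≤ t + 1
  · refine (h α hα z).trans ?_
    have h1 := wt_le ha z.1 0
    rw [zero_sub, abs_neg] at h1
    have h2 : Real.exp (-k * t) * Real.exp (k / 64 * |z.1|) ≤ Real.exp (k / 64) * ex k 9 t := by
      rw [ex, ← Real.exp_add, ← Real.exp_add, Real.exp_le_exp]
      have := mul_le_mul_of_nonneg_left hz (show 0 ≤ k / 64 by positivity)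
      have := mul_nonneg hk.le ht
      linarith
    rw [div_mul_eq_mul_div, div_mul_eq_mul_div, le_div_iff₀ p0]
    have h3 := mul_le_mul_of_nonneg_left h1 (show 0 ≤ ε * Real.exp (-k * t) by positivity)
    have h4 := mul_le_mul_of_nonneg_left h2 (show 0 ≤ ε * a z.1 by positivity)
    linarith
  · have e : tsupport g ⊆ {y : X3 | |y.1| ≤ t + 1} :=
      closure_minimal (fun y hy => by
        by_contra c
        exact hy (hs y (not_le.1 c).le))
        (isClosed_le (continuous_fst.abs) continuous_const)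
    rw [image_eq_zero_of_notMem_tsupport fun c => hz (e (tsupp_pdl α _ c)), abs_zero]
    positivity

/-- The solutions for the data and the source cut off in x. -/
theorem solve2 (hE : EXISTS) : SOLVE2 := by
  intro k s a A A0 C hk hs ha _ hsa
  obtain ⟨η, ε0, C0, h1, h2, h3, H⟩ := hE k a A A0 5 4 hk ha (by norm_num)
  obtain ⟨cc, hc⟩ := sb_cx 9
  have c0 : 0 ≤ cc := (hc 0).nonneg
  choose cm hcm using sb_cx
  choose cs hcs using sb_sq
  set c1 := Real.exp (k / 64) / a 0 with hc1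
  have c2 : 0 < c1 := div_pos (Real.exp_pos _) (ha.pos 0)
  obtain ⟨δ0, c, d0, -, G⟩ := H (fun m => max (|C m| * Real.exp (k / 2) + k / 2)
    (2 ^ m * (cs m * (2 ^ m * (cm m * C m)))))
    ((2 ^ 9 * cc) ^ 2 * ∫ y, maj 1 4 y)
  refine ⟨min (min 1 δ0) ((η / (|C 10| + 1)) ^ 2), by positivity, c, fun ε' he => ?_⟩
  refine ⟨min 1 (min ε0 (ε' / C0) / (2 ^ 9 * cc * (1 + c1) + 1)), by positivity,
    fun δ hδ ρ hρ δ1 K f hK w0 hw => ?_⟩
  set ε := min 1 (min ε0 (ε' / C0) / (2 ^ 9 * cc * (1 + c1) + 1)) with hε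
  have e0 : 0 < ε := by positivity
  have e1 : ε ≤ 1 := min_le_left _ _
  have e3 : 2 ^ 9 * cc * ε ≤ min ε0 (ε' / C0) ∧ 2 ^ 9 * cc * c1 * ε ≤ min ε0 (ε' / C0) := by
    have := min_le_right 1 (min ε0 (ε' / C0) / (2 ^ 9 * cc * (1 + c1) + 1))
    rw [← hε, le_div_iff₀ (by positivity)] at this
    have q1 : 0 ≤ 2 ^ 9 * cc * ε := by positivity
    have q2 : 0 ≤ 2 ^ 9 * cc * c1 * ε := by positivity
    constructor <;> linarith
  have e2 := e3.1
  have r1 : √ρ ≤ 1 := Real.sqrt_le_one.2 (hρ.2.trans ((min_le_left _ _).trans (min_le_left _ _)))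
  have r2' : C 10 * √ρ ≤ η := by
    have h4 : √ρ ≤ η / (|C 10| + 1) := Real.sqrt_le_iff.2 ⟨by positivity,
      hρ.2.trans (min_le_right _ _)⟩
    rw [le_div_iff₀ (by positivity)] at h4
    nlinarith [le_abs_self (C 10), Real.sqrt_nonneg ρ]
  have sK : ∀ i, ContDiff ℝ ∞ (cmp K i) := fun i => contDiffOn_univ.1 (hK.smooth.1 i)
  have sU : ∀ i, ContDiff ℝ ∞ (Ub k K i) := fun i => (sK i).sub contDiff_const
  have hB : Bg k η (4 + 6) K := ⟨sK, fun i p hp α hα => by
    have h4 : dxl α (Ub k K i) p = pdl α (fun z => K (p.1, z) i - U0 k i) p.2 :=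
      (congrFun (pdl_sl α (sU i) p.1) p.2).symm
    rw [h4, gB]
    by_cases hq : isQ i = true
    · have h5 : U0 k i = 0 := by cases i <;> first | rfl | exact absurd hq (by decide)
      simp only [h5, sub_zero, hq, if_true]
      refine (hK.boundQ 10 p.1 hp i hq α hα p.2).trans ?_
      rw [ex, show -(16 * k / 16) * p.1 = -k * p.1 by ring]
      exact mul_le_mul_of_nonneg_right r2' (Real.exp_pos _).le
    · rw [if_neg hq]
      refine (hK.bound 10 p.1 (by linarith) i α hα p.2).trans ?_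
      rw [ex, show -(8 * k / 16) * p.1 = -k * p.1 / 2 by ring]
      exact mul_le_mul_of_nonneg_right r2' (Real.exp_pos _).le⟩
  have hb : ∀ m t, -1 ≤ t → ∀ i, Sb m (cmp (sl K t) i) (|C m| * Real.exp (k / 2) + k / 2) := by
    intro m t ht i
    have h4 : ‖U0 k i‖ ≤ k / 2 := by
      have : |-k / 2| ≤ k / 2 := abs_le.2 ⟨by linarith, by linarith⟩
      cases i <;> first | exact this | exact norm_zero.trans_le (by positivity)
    have h5 := (hK.bound m t ht i).add (P354CS.sb_const m h4) (P354H.sl_sm (sU i) t) contDiff_const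
    refine ((congrArg (fun f => Sb m f _) (funext fun z => ?_)).mp h5).mono le_rfl ?_
    · exact sub_add_cancel _ _
    · refine add_le_add_left (mul_le_mul ((mul_le_mul_of_nonneg_right (le_abs_self _)
        (Real.sqrt_nonneg _)).trans (mul_le_of_le_one_right (abs_nonneg _) r1))
        (Real.exp_le_exp.2 (by nlinarith)) (Real.exp_pos _).le (abs_nonneg _)) _
  have hd : ∀ (n : ℕ) i (α : List (Fin 3)), α.length ≤ 9 → ∀ z,
      |pdl α (cmp (fun z : X3 => cx n z.1 • w0 z) i) z| ≤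
        2 ^ 9 * cc * ε * (1 + z.1 ^ 2) ^ (-s / 2) := fun n i α hα z => by
    refine (pt_mul (cx_sm n) (hw.smooth i) (hc n) (fun β hβ => hw.bound i β hβ z) α hα).trans ?_
    refine (mul_le_mul_of_nonneg_right (pow_mono2 hα) (by positivity)).trans (le_of_eq (by ring))
  have hg : ∀ (n : ℕ) i, Good (cmp (fun z : X3 => cx n z.1 • w0 z) i) := fun n i => by
    refine ⟨(cx_sm n).mul (hw.smooth i), HasCompactSupport.intro
      ((isCompact_Icc (a := -((n : ℝ) + 1)) (b := n + 1)).prod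
        ((isCompact_Icc (a := (-4 : ℝ)) (b := 4)).prod (isCompact_Icc (a := (-4 : ℝ)) (b := 4))))
      fun z hz => ?_⟩
    rw [mem_prod, not_and_or] at hz
    rcases hz with hz | hz
    · rw [mem_Icc, not_and_or, not_le, not_le] at hz
      have : cx n z.1 = 0 := by
        unfold cx
        rcases hz with hz | hz
        · rw [Real.smoothTransition.zero_of_nonpos (x := n + 1 + z.1) (by linarith), mul_zero]
        · rw [Real.smoothTransition.zero_of_nonpos (x := n + 1 - z.1) (by linarith), zero_mul]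
      simp [P354A.cmp, this]
    · simp [P354A.cmp, hw.supp z (box_of hz)]
  have hH : ∀ (n : ℕ) i, Hk 8 (cmp (fun z : X3 => cx n z.1 • w0 z) i)
      ((2 ^ 9 * cc) ^ 2 * ∫ y, maj 1 4 y) := fun n i α hα => by
    rw [← integral_const_mul]
    refine integral_mono ((hg n i).pdl α).c0.sq ((maj_int one_ne_zero 4).const_mul _) fun z => ?_
    by_cases hz : z.2 ∈ Icc (-4 : ℝ) 4 ×ˢ Icc (-4 : ℝ) 4
    · have h4 := pow_le_pow_left₀ (abs_nonneg _) (hd n i α (by omega) z) 2
      refine h4.trans ?_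
      simp only [maj, indicator_of_mem hz, mul_one, one_mul]
      rw [mul_assoc, mul_pow]
      refine mul_le_mul_of_nonneg_left ?_ (sq_nonneg _)
      have h5 : (1 : ℝ) ≤ 1 + z.1 ^ 2 := le_add_of_nonneg_right (sq_nonneg _)
      have h6 : ((1 + z.1 ^ 2) ^ (-s / 2)) ^ 2 ≤ (1 + z.1 ^ 2)⁻¹ := by
        rw [← Real.rpow_natCast, ← Real.rpow_mul (by positivity), ← Real.rpow_neg_one]
        exact Real.rpow_le_rpow_of_exponent_le h5 (by push_cast; linarith)
      rw [mul_pow]
      exact (mul_le_of_le_one_left (sq_nonneg _) (pow_le_one₀ e0.le e1)).trans h6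
    · have e2 : tsupport (cmp (fun z : X3 => cx n z.1 • w0 z) i) ⊆
          {y : X3 | y.2 ∈ Icc (-4 : ℝ) 4 ×ˢ Icc (-4 : ℝ) 4} := by
        refine closure_minimal (fun y hy => ?_)
          ((isClosed_Icc.prod isClosed_Icc).preimage continuous_snd)
        by_contra c
        exact hy (by simp [P354A.cmp, hw.supp y (box_of c)])
      simp only [image_eq_zero_of_notMem_tsupport fun c => hz (e2 (tsupp_pdl α _ c)), norm_zero]
      exact le_of_eq_of_le (by simp) (mul_nonneg (sq_nonneg _) (maj_nn _ _ _))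
  have hm : 0 < min ε0 (ε' / C0) := by positivity
  have sf : ∀ i, ContDiff ℝ ∞ (cmp f i) := fun i => contDiffOn_univ.1 (hK.smooth.2 i)
  have sc : ∀ n i, ContDiff ℝ ∞ (cmp (cut n f) i) := fun n i =>
    ((cx_sm n).comp contDiff_snd).mul (sf i)
  have hq : ∀ (n m : ℕ), ∀ t ∈ Icc (-1 : ℝ) 1, ∀ i, Sb m
      (fun x : X3 => (1 + x.1 ^ 2) * cut n f (t, x) i) (2 ^ m * (cs m * (2 ^ m * (cm m * C m)))) := by
    intro n m t ht i
    have h4 := sb_mul ((contDiff_const.add (contDiff_fst.pow 2)).mul (cx_sm 2))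
      ((cx_sm n).mul (P354H.sl_sm (sf i) t)) (hcs m)
      (sb_mul (cx_sm n) (P354H.sl_sm (sf i) t) (hcm m n) (hK.all m t ht i))
    refine (congrArg (fun f => Sb m f _) (funext fun z => ?_)).mp h4
    by_cases hz : |z.1| ≤ (2 : ℕ)
    · rw [cx_in hz, mul_one]
      rfl
    · have := hK.supp (t, z) (Or.inr (by
        have := abs_le.2 ht
        push_cast at hz
        linarith [not_le.1 hz]))
      simp [cut, sl, P354A.cmp, this]
  have hf : ∀ n : ℕ, Src k a 5 (min ε0 (ε' / C0)) (4 + 5) (cut n f) := fun n => by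
    refine ⟨sc n, fun i p hp α hα => ?_, fun p hp => ?_⟩
    · rw [show dxl α (cmp (cut n f) i) p = pdl α (fun z => cx n z.1 * sl (cmp f i) p.1 z) p.2 from
        (congrFun (pdl_sl α (sc n i) p.1) p.2).symm]
      refine (pt_mul (cx_sm n) (P354H.sl_sm (sf i) p.1) (hc n) (fun β hβ => src_pt hk ha hp e0.le
        ((hK.src p.1 (by linarith) i).low (by norm_num)) (fun z hz => congrFun (hK.supp (p.1, z)
          (Or.inr (by rwa [abs_of_nonneg hp]))) i) β hβ p.2) α hα).trans ?_
      have q : 0 ≤ ex k 9 p.1 * a p.2.1 := (mul_pos (ex_pos _ _ _) (ha.pos _)).le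
      refine (mul_le_mul_of_nonneg_right (pow_mono2 hα) (by positivity)).trans ?_
      exact le_trans (le_of_eq (by rw [hc1]; ring)) (mul_le_mul_of_nonneg_right e3.2 q)
    · rw [cut, hK.supp p (Or.inl ?_), smul_zero]
      unfold r2
      rcases hp with h | h <;>
        nlinarith [sq_abs p.2.2.1, sq_abs p.2.2.2, sq_nonneg p.2.2.1, sq_nonneg p.2.2.2]
  choose w w1 w2 w3 w4 w5 w6 using fun n : ℕ => G K (cut n f) (fun z : X3 => cx n z.1 • w0 z) _ hB
    (fun m t ht i => ⟨(hb m t ht.1 i).mono le_rfl (le_max_left _ _),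
      (hq n m t ht i).mono le_rfl (le_max_right _ _)⟩)
    (fun T => ⟨_, fun m t ht => hb m t ht.1⟩) hm (min_le_left _ _) (hf n)
    ⟨n + 1, fun p hp => by rw [cut, cx_out hp, zero_smul]⟩
    (hg n) ⟨fun i α hα z => (hd n i α hα z).trans (mul_le_mul e2 (hsa _) (by positivity) hm.le),
      fun z hz => by
        rw [hw.supp z (box_of fun c => ?_), smul_zero]
        rw [mem_prod, mem_Icc, mem_Icc, ← abs_le, ← abs_le] at c
        rcases hz with hz | hz <;> linarith [c.1, c.2]⟩ (hH n)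
  have d1 : δ ≤ δ0 := hδ.2.trans ((min_le_left _ _).trans (min_le_right _ _))
  refine ⟨w, w1, fun n z => congrFun (w2 n) z, fun n p hp => w3 n p (by linarith),
    fun n p hp => w4 n p ⟨by linarith [hp.1], hp.2⟩, fun n p hp => ?_, w6⟩
  refine out_mono hk ha hp ?_ (w5 n p hp)
  rw [← le_div_iff₀' h3]
  exact min_le_right _ _

end Vale.Agent.P354AS
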