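import Vale.Agent.P354AS.Bar
import Vale.Agent.P354X.Xpt

open scoped ContDiff
open MeasureTheory Set Filter Topology

namespace Vale.Agent.P354AS

open Vale.Agent.P354H Vale.Agent.P354C Vale.Agent.P354A Vale.Agent.P354X
open Vale.Agent.P354HU (deriv_int int_sl cont_fd int_dx)

/-- The energy inequality with a source. -/
theorem energyS {f h : ℝ × X3 → ℝ} (a : Idn f h) {T L t : ℝ} {Q : X3 → ℝ} (hL : 0 < L)
    (hQ : Integrable Q) (H : ∀ p : ℝ × X3, p.1 ∈ Icc 0 T → h p ≤ L * f p + Q p.2)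
    (ht : t ∈ Icc 0 T) :
    (∫ x, f (t, x)) + (∫ x, Q x) / L ≤ Real.exp (L * t) * ((∫ x, f (0, x)) + (∫ x, Q x) / L) := by
  obtain ⟨g, g1, g2⟩ := a.ex
  have hf := a.cd
  have d : ∀ s, HasDerivAt (fun s => Real.exp (-L * s) * ((∫ x, f (s, x)) + (∫ x, Q x) / L))
      (Real.exp (-L * s) * (-L * 1) * ((∫ x, f (s, x)) + (∫ x, Q x) / L) +
        Real.exp (-L * s) * ∫ x, dt f (s, x)) s :=
    fun s => ((hasDerivAt_id s).const_mul (-L)).exp.mul ((deriv_int hf a.cs s).add_const _)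
  have h1 : Real.exp (-L * t) * ((∫ x, f (t, x)) + (∫ x, Q x) / L) ≤
      Real.exp (-L * 0) * ((∫ x, f (0, x)) + (∫ x, Q x) / L) := by
    refine antitoneOn_of_deriv_nonpos (convex_Icc 0 T)
      (fun s _ => (d s).continuousAt.continuousWithinAt)
      (fun s _ => (d s).differentiableAt.differentiableWithinAt) (fun s hs => ?_)
      (left_mem_Icc.2 (ht.1.trans ht.2)) ht ht.1
    have i1 : ∀ j, Integrable fun x => dx j (g j) (s, x) := fun j =>
      int_sl (cont_fd (g1 j).1 _) ((g1 j).2.fderiv_apply ℝ _) s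
    have i2 := ((int_sl hf.continuous a.cs s).const_mul L)
    have b := integral_mono (int_sl (cont_fd hf (1, 0)) (a.cs.fderiv_apply ℝ _) s)
      ((integrable_finsetSum _ fun j _ => i1 j).add (i2.add hQ)) fun x =>
        (g2 (s, x)).trans_le (add_le_add_right (H (s, x) (interior_subset hs)) _)
    rw [integral_add' (integrable_finsetSum _ fun j _ => i1 j) (i2.add hQ), integral_add' i2 hQ,
      integral_finsetSum _ fun j _ => i1 j, integral_const_mul,
      Finset.sum_eq_zero fun j _ => int_dx (g1 j).1 (g1 j).2 j s, zero_add] at b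
    rw [(d s).deriv]
    have c := mul_le_mul_of_nonneg_left b (Real.exp_pos (-L * s)).le
    have e : L * ((∫ x, Q x) / L) = ∫ x, Q x := mul_div_cancel₀ _ hL.ne'
    have e' := congrArg (fun y => Real.exp (-L * s) * y) e
    unfold dt
    linarith
  rwa [mul_zero, Real.exp_zero, one_mul, neg_mul, Real.exp_neg,
    inv_mul_le_iff₀ (Real.exp_pos _)] at h1

theorem one_bdS {k ν θ H ψ ψ' R π D : ℝ} (h0 : 0 < ν) (h1 : ν ≤ 1) (hθ : 0 ≤ θ) (hk : 0 < k)
    (hψ : 0 ≤ ψ) (hψ' : |ψ'| ≤ k / 16 * ψ) (i : Ix) {z : Ix → ℝ} {d : Fin 3 → Ix → ℝ}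
    (hz : ∀ j, rr ν j * |z j| ≤ H) (hd : ∀ j m, |d j m| ≤ 2 * θ)
    (hπ : rr ν i * |π + D| ≤ R * H) :
    2 * ψ * (rr ν i ^ 2 * (z i * (π - dmp i * (k / 2) * z i))) +
      ψ' * (rr ν i ^ 2 * c1 i * (z i * z i)) +
      ψ * (rr ν i ^ 2 * ((fl i).map fun t =>
        (t.1 : ℝ) * (d t.2.2.1 t.2.1 * (z i * z t.2.2.2))).sum) ≤
      (2 * R + 2 * θ / ν * cf i) * (ψ * H ^ 2) +
        3 * k / 32 * (ψ * (rr ν i ^ 2 * c0 i * (z i * z i))) + 32 / k * (ψ * D ^ 2) := by
  have a := one_bd h0 h1 hθ hk hψ hψ' i hz hd hπ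
  have hr := rr_bd h1 i
  have r1 : rr ν i ^ 2 ≤ 1 := pow_le_one₀ (h0.le.trans hr.1) hr.2
  have c : (1 : ℝ) ≤ c0 i := by exact_mod_cast (tab1 i (all_mem i)).1
  have e1 : -2 * (z i * D) ≤ k / 32 * (z i * z i) + 32 / k * D ^ 2 := by
    have q : 0 ≤ k / 32 * (z i + 32 / k * D) ^ 2 := by positivity
    have : k / 32 * (z i + 32 / k * D) ^ 2 =
        k / 32 * (z i * z i) + 32 / k * D ^ 2 + 2 * (z i * D) := by
      field_simp
      ring
    linarith
  have e2 := mul_le_mul_of_nonneg_left e1 (mul_nonneg hψ (sq_nonneg (rr ν i)))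
  have e3 := mul_le_mul_of_nonneg_right r1 (show 0 ≤ 32 / k * (ψ * D ^ 2) by positivity)
  have e4 := mul_le_mul_of_nonneg_right c (show 0 ≤ k / 32 * (ψ * (rr ν i ^ 2 * (z i * z i))) from
    mul_nonneg (by positivity) (mul_nonneg hψ (mul_nonneg (sq_nonneg _) (mul_self_nonneg _))))
  linarith

/-- The crude weighted energy estimate with a source. -/
theorem xenS (k : ℝ) (n m : ℕ) (hk : 0 < k) (hnm : n ≤ 2 * m) (hm : 1 ≤ m) :
    ∃ θ C : ℝ, 0 < θ ∧ 0 < C ∧ ∀ (K f w : ℝ × X3 → Ix → ℝ) (T : ℝ), Bg k θ (n + 1) K →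
      (∀ i, ContDiff ℝ ∞ (cmp f i)) → SolS K f w T →
      (∀ p : ℝ × X3, p.1 ∈ Icc 0 T → ∀ i, Pb m (cmp w i) p θ) →
      ∀ ψ : ℝ → ℝ, ContDiff ℝ 1 ψ → (∀ y, 0 ≤ ψ y) → (∀ y, |deriv ψ y| ≤ k / 16 * ψ y) →
        ∀ Q : X3 → ℝ, Integrable Q →
          (∀ p : ℝ × X3, p.1 ∈ Icc 0 T → ψ p.2.1 * en n f p ≤ Q p.2) →
          ∀ t ∈ Icc 0 T, ∫ x : X3, ψ x.1 * en n w (t, x) ≤
            C * Real.exp (k / 8 * t) * ((∫ x : X3, ψ x.1 * en n w (0, x)) + ∫ x, Q x) := by
  set N : ℝ := ((words n).length : ℝ) with hN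
  have hN0 : 0 ≤ N := Nat.cast_nonneg _
  have hl : 0 ≤ ∑ i, cl i := Finset.sum_nonneg fun i _ => cl_nn i
  have hc : 0 ≤ 2 ^ n * 8 * ∑ i, cq i + 2 * ∑ i, cf i := by
    have := Finset.sum_nonneg (s := Finset.univ) fun i _ => cq_nn i
    have := Finset.sum_nonneg (s := Finset.univ) fun i _ => cf_nn i
    positivity
  obtain ⟨ν, h0, h1, h2⟩ : ∃ ν : ℝ, 0 < ν ∧ ν ≤ 1 ∧ N * (2 * ν * ∑ i, cl i) ≤ k / 64 := by
    refine ⟨min 1 (k / (128 * (N * ∑ i, cl i + 1))), lt_min one_pos (by positivity),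
      min_le_left _ _, ?_⟩
    have a := min_le_right 1 (k / (128 * (N * ∑ i, cl i + 1)))
    have b : 0 < min 1 (k / (128 * (N * ∑ i, cl i + 1))) := lt_min one_pos (by positivity)
    rw [le_div_iff₀ (by positivity)] at a
    nlinarith
  obtain ⟨θ, hθ, h3⟩ : ∃ θ : ℝ, 0 < θ ∧
      N * (θ / ν * (2 ^ n * 8 * ∑ i, cq i + 2 * ∑ i, cf i)) ≤ k / 64 := by
    refine ⟨ν * (k / (64 * (N * (2 ^ n * 8 * ∑ i, cq i + 2 * ∑ i, cf i) + 1))), by positivity, ?_⟩
    rw [mul_div_cancel_left₀ _ h0.ne', mul_left_comm, div_mul_eq_mul_div,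
      div_le_div_iff₀ (by positivity) (by norm_num)]
    nlinarith
  refine ⟨θ, (2 + 32 / k / (k / 8)) / ν ^ 2, hθ, by positivity,
    fun K f w T hK hsf hw hlo ψ hψ hψ0 hψ' Q hQ hfQ t ht => ?_⟩
  have hr := rr_bd h1
  have hU : ∀ i, ContDiff ℝ 1 (cmp (K + w) i) := fun i =>
    ((hK.sm i).add (hw.sm i)).of_le (by simp)
  have hI := Idn.lsum (words n) fun α _ => one_word k ν hψ hU
    (z := fun j => dxl α (cmp w j)) (fun i => (P354X.dxl_sm α (hw.sm i)).of_le (by simp))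
    fun i => P354X.dxl_cs α (hw.cs i)
  have hc0 : ∀ i, (1 : ℝ) ≤ c0 i ∧ (c0 i : ℝ) ≤ 2 := fun i =>
    ⟨by exact_mod_cast (tab1 i (all_mem i)).1, by exact_mod_cast (tab1 i (all_mem i)).2.1⟩
  have hf : ∀ (p : ℝ × X3) (s : Ix → ℝ), ψ p.2.1 * ∑ i, s i *
      ((words n).map fun α => dxl α (cmp w i) p ^ 2).sum = ((words n).map fun α => ∑ i, ψ p.2.1 *
        (s i * (dxl α (cmp w i) p * dxl α (cmp w i) p))).sum := by
    intro p s
    simp only [lsum_sum, List.sum_map_mul_left, Finset.mul_sum, pow_two]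
  have hs : ∀ (w : ℝ × X3 → Ix → ℝ) (p : ℝ × X3) i,
      0 ≤ ((words n).map fun α => dxl α (cmp w i) p ^ 2).sum :=
    fun w p i => lsum_nn _ fun _ _ => sq_nonneg _
  have hen : ∀ (w : ℝ × X3 → Ix → ℝ) (p : ℝ × X3), 0 ≤ ψ p.2.1 * en n w p := fun w p =>
    mul_nonneg (hψ0 _) (Finset.sum_nonneg fun i _ => hs w p i)
  have hE := energyS hI (L := k / 8) (by positivity) (hQ.const_mul (32 / k)) (fun p hp => ?_) ht
  · have hf' := fun t x => hf (t, x) fun i => rr ν i ^ 2 * c0 i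
    have hi : ∀ t, Integrable fun x : X3 => ψ x.1 * ∑ i, rr ν i ^ 2 * c0 i *
        ((words n).map fun α => dxl α (cmp w i) (t, x) ^ 2).sum := fun t =>
      (P354HU.int_sl hI.cd.continuous hI.cs t).congr (Eventually.of_forall fun x => (hf' t x).symm)
    rw [← integral_congr_ae (Eventually.of_forall (hf' t)),
      ← integral_congr_ae (Eventually.of_forall (hf' 0))] at hE
    have a := integral_mono ((en_id hψ hw.sm hw.cs n t).const_mul (ν ^ 2)) (hi t) fun x => by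
      simp only [en]
      rw [mul_left_comm, Finset.mul_sum]
      refine mul_le_mul_of_nonneg_left (Finset.sum_le_sum fun i _ =>
        mul_le_mul_of_nonneg_right ?_ (hs _ _ i)) (hψ0 _)
      exact (pow_le_pow_left₀ h0.le (hr i).1 2).trans
        (le_mul_of_one_le_right (sq_nonneg _) (hc0 i).1)
    have b := integral_mono (hi 0) ((en_id hψ hw.sm hw.cs n 0).const_mul 2) fun x => by
      simp only [en]
      rw [mul_left_comm, Finset.mul_sum _ _ 2]
      refine mul_le_mul_of_nonneg_left (Finset.sum_le_sum fun i _ =>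
        mul_le_mul_of_nonneg_right ?_ (hs _ _ i)) (hψ0 _)
      have := pow_le_one₀ (n := 2) (h0.le.trans (hr i).1) (hr i).2
      nlinarith [(hc0 i).1, (hc0 i).2]
    rw [integral_const_mul] at a b hE
    have q0 : 0 ≤ ∫ x, Q x := integral_nonneg fun x => (hen f (t, x)).trans (hfQ (t, x) ht)
    have q1 : 0 ≤ ∫ x : X3, ψ x.1 * en n w (0, x) := integral_nonneg fun x => hen w (0, x)
    have q2 : 0 ≤ 32 / k * (∫ x, Q x) / (k / 8) := by positivity
    have q3 : 2 * (∫ x : X3, ψ x.1 * en n w (0, x)) + 32 / k * (∫ x, Q x) / (k / 8) ≤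
        (2 + 32 / k / (k / 8)) * ((∫ x : X3, ψ x.1 * en n w (0, x)) + ∫ x, Q x) := by
      have := mul_nonneg (show 0 ≤ 32 / k / (k / 8) by positivity) q1
      rw [mul_div_right_comm]
      linarith
    have c := (a.trans (le_add_of_nonneg_right q2)).trans (hE.trans (mul_le_mul_of_nonneg_left
      ((add_le_add_left b _).trans q3) (Real.exp_pos _).le))
    rw [← le_div_iff₀' (by positivity)] at c
    exact c.trans (le_of_eq (by ring))
  set F := ∑ i, rr ν i ^ 2 * ((words n).map fun α => dxl α (cmp w i) p ^ 2).sum with hF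
  have hF0 : 0 ≤ F := Finset.sum_nonneg fun i _ => mul_nonneg (sq_nonneg _) (hs w p i)
  have hz : ∀ α ∈ words n, ∀ j, rr ν j * |dxl α (cmp w j) p| ≤ √F := by
    intro α hα j
    refine Real.le_sqrt_of_sq_le ?_
    rw [mul_pow, sq_abs]
    refine le_trans (mul_le_mul_of_nonneg_left (le_lsum (f := fun α => dxl α (cmp w j) p ^ 2)
      (fun _ => sq_nonneg _) hα) (sq_nonneg _)) ?_
    exact Finset.single_le_sum (f := fun i => rr ν i ^ 2 *
      ((words n).map fun α => dxl α (cmp w i) p ^ 2).sum)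
      (fun i _ => mul_nonneg (sq_nonneg _) (hs w p i)) (Finset.mem_univ j)
  have hg : ∀ i, Pb (n + 1) (Ub k K i) p θ := fun i α hα => by
    refine (hK.bd i p hp.1 α hα).trans (mul_le_of_le_one_right hθ.le ?_)
    refine Real.exp_le_one_iff.2 ?_
    have := hp.1
    split_ifs <;> nlinarith
  have hd : ∀ j i, |dx j (cmp (K + w) i) p| ≤ 2 * θ := by
    intro j i
    have a := hg i [j] (by simp)
    have b := hlo p hp i [j] (by simpa using hm)
    have c : cmp (K + w) i = fun q => (Ub k K i q + U0 k i) + cmp w i q := by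
      funext q; simp [Ub, P354A.cmp]
    have s1 : ContDiff ℝ 1 (Ub k K i) := ((hK.sm i).of_le (by simp)).sub contDiff_const
    simp only [dxl, dx] at a b
    rw [c, dx, fv_add (s1.add contDiff_const) ((hw.sm i).of_le (by simp)),
      fv_add s1 contDiff_const]
    simp only [fderiv_fun_const, Pi.zero_apply, zero_apply, add_zero]
    exact (abs_add_le _ _).trans (by linarith)
  have hb : ∀ α ∈ words n, ∀ i, rr ν i * |prin k ((K + w) p) (fun j => dxl α (cmp w j)) i p +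
      dxl α (cmp f i) p| ≤ (ν * cl i + 2 ^ n * (4 * θ / ν) * cq i) * √F := fun α hα i => by
    refine le_trans (mul_le_mul_of_nonneg_left (ceqS k (hi := fun j => √F / rr ν j) hK.sm hsf
      hw hp hnm hg (hlo p hp) (fun j β hβ => ?_) (P354X.mem_words.1 hα) i) (h0.le.trans (hr i).1))
      (rb_le h0 h1 hθ.le (Real.sqrt_nonneg _) n i)
    rw [le_div_iff₀' (h0.trans_le (hr j).1)]
    exact hz β (P354X.mem_words.2 hβ) j
  refine (lsum_le _ fun α hα => Finset.sum_le_sum fun i _ =>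
    one_bdS h0 h1 hθ.le hk (hψ0 _) (hψ' _) i (z := fun j => dxl α (cmp w j) p)
      (d := fun j i => dx j (cmp (K + w) i) p) (hz α hα) hd (hb α hα i)).trans ?_
  have a : ψ p.2.1 * F ≤ ((words n).map fun α => ∑ i, ψ p.2.1 *
      (rr ν i ^ 2 * c0 i * (dxl α (cmp w i) p * dxl α (cmp w i) p))).sum := by
    rw [← hf]
    refine mul_le_mul_of_nonneg_left (Finset.sum_le_sum fun i _ =>
      mul_le_mul_of_nonneg_right ?_ (hs _ _ i)) (hψ0 _)
    exact le_mul_of_one_le_right (sq_nonneg _) (hc0 i).1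
  have b : 0 ≤ ψ p.2.1 * F := mul_nonneg (hψ0 _) hF0
  have g : ((words n).map fun α => ∑ i, dxl α (cmp f i) p ^ 2).sum = en n f p := lsum_sum _ _ _
  have g' := mul_le_mul_of_nonneg_left (hfQ p hp) (show 0 ≤ 32 / k by positivity)
  simp only [Finset.sum_add_distrib, ← Finset.sum_mul, List.sum_map_add, List.map_const',
    List.sum_replicate, nsmul_eq_mul, ← hN, Real.sq_sqrt hF0]
  simp only [← Finset.mul_sum, List.sum_map_mul_left, Finset.sum_add_distrib, g] at a ⊢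
  have c : N * ((2 * (ν * ∑ i, cl i + 2 ^ n * (4 * θ / ν) * ∑ i, cq i) + 2 * θ / ν * ∑ i, cf i))
      ≤ k / 32 := by
    refine le_trans (le_of_eq (by ring)) ((add_le_add h2 h3).trans (le_of_eq (by ring)))
  have d := mul_le_mul_of_nonneg_right c b
  have e := mul_le_mul_of_nonneg_left a (show 0 ≤ k / 32 by positivity)
  nlinarith

end Vale.Agent.P354AS
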