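import Vale.Agent.P354AS.Xen

open scoped ContDiff
open MeasureTheory Set Filter Topology

namespace Vale.Agent.P354AS

open Vale.Agent.P354H Vale.Agent.P354C Vale.Agent.P354A Vale.Agent.P354X

/-- The indicator of the cube in the angular variables. -/
noncomputable def cube (r : ℝ) (y : ℝ × ℝ) : ℝ :=
  indicator (Icc (-r) r ×ˢ Icc (-r) r) (fun _ => (1 : ℝ)) y

theorem cube_nn (r : ℝ) (y : ℝ × ℝ) : 0 ≤ cube r y := indicator_nonneg (fun _ _ => zero_le_one) _

theorem en_cube {n : ℕ} {G : ℝ × X3 → Ix → ℝ} {t r : ℝ} {b : X3 → ℝ}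
    (hG : ∀ i, ContDiff ℝ ∞ (cmp G i))
    (h : ∀ i, ∀ α : List (Fin 3), α.length ≤ n → ∀ y, |dxl α (cmp G i) (t, y)| ≤ b y)
    (hs : ∀ y : X3, r < |y.2.1| ∨ r < |y.2.2| → G (t, y) = 0) (y : X3) :
    en n G (t, y) ≤ Fintype.card Ix * (words n).length * (b y ^ 2 * cube r y.2) := by
  rw [mul_assoc]
  refine en_le fun i β hβ => ?_
  by_cases hy : y.2 ∈ Icc (-r) r ×ˢ Icc (-r) r
  · rw [cube, indicator_of_mem hy, mul_one, ← sq_abs]
    exact pow_le_pow_left₀ (abs_nonneg _) (h i β hβ y) 2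
  · have e2 : tsupport (sl (cmp G i) t) ⊆ {y : X3 | y.2 ∈ Icc (-r) r ×ˢ Icc (-r) r} := by
      refine closure_minimal (fun z hz => ?_)
        ((isClosed_Icc.prod isClosed_Icc).preimage continuous_snd)
      by_contra c
      refine hz (congrFun (hs z ?_) i)
      rwa [mem_ofPred_eq, mem_prod, mem_Icc, mem_Icc, ← abs_le, ← abs_le, not_and_or, not_le,
        not_le] at c
    have e3 := image_eq_zero_of_notMem_tsupport fun c => hy (e2 (tsupp_pdl β _ c))
    rw [pdl_sl β (hG i)] at e3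
    rw [show dxl β (cmp G i) (t, y) = 0 from e3, cube, indicator_of_notMem hy]
    simp

theorem wt_int {k : ℝ} {a A : ℝ → ℝ} {A0 : ℝ} (h : Wt k a A A0) : Integrable a := by
  refine integrable_of_intervalIntegral_norm_bounded (l := atTop) (a := fun n : ℝ => -n)
    (b := fun n : ℝ => n) A0 (fun n => (h.ca.integrableOn_Icc).mono_set Ioc_subset_Icc_self)
    tendsto_neg_atTop_atBot tendsto_id (Eventually.of_forall fun n => ?_)
  simp only [Real.norm_eq_abs, abs_of_pos (h.pos _)]
  rw [intervalIntegral.integral_eq_sub_of_hasDerivAt (fun y _ => h.prim y)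
    (h.ca.intervalIntegrable _ _)]
  linarith [h.nn (-n), h.bd n]

theorem src_en {k r ε : ℝ} {a A : ℝ → ℝ} {A0 : ℝ} {n : ℕ} {f : ℝ × X3 → Ix → ℝ} (hk : 0 < k)
    (ha : Wt k a A A0) (hε : 0 ≤ ε) (h : Src k a r ε n f) {p : ℝ × X3} (hp : 0 ≤ p.1) :
    en n f p ≤ Fintype.card Ix * (words n).length * ((ε * a p.2.1) ^ 2 * cube r p.2.2) :=
  en_cube (t := p.1) (b := fun y => ε * a y.1) h.sm (fun i α hα y =>
    (h.bd i (p.1, y) hp α hα).trans (mul_le_mul_of_nonneg_left (mul_le_of_le_one_left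
      (ha.pos _).le (ex_le hk (by norm_num) hp)) hε)) (fun y hy => h.supp (p.1, y) hy) p.2

/-- The crude pointwise estimate and the estimate in the Sobolev space. -/
theorem xptS (k : ℝ) (a A : ℝ → ℝ) (A0 r : ℝ) (m : ℕ) (hk : 0 < k) (ha : Wt k a A A0)
    (hm : 4 ≤ m) : ∃ θ C : ℝ, 0 < θ ∧ 0 < C ∧ ∀ (K f w : ℝ × X3 → Ix → ℝ) (T ε : ℝ),
      Bg k θ (m + 5) K → SolS K f w T →
      (∀ p : ℝ × X3, p.1 ∈ Icc 0 T → ∀ i, Pb m (cmp w i) p θ) → 0 ≤ ε →
      Src k a r ε (m + 4) f →
      (Dat a r ε (m + 4) (sl w 0) → ∀ p : ℝ × X3, p.1 ∈ Icc 0 T → ∀ i,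
        Pb (m + 1) (cmp w i) p (C * ε * (ex k (-1) p.1 * a p.2.1))) ∧
      (ε ≤ 1 → ∀ R, (∀ i, Hk (m + 4) (cmp (sl w 0) i) R) → ∀ t ∈ Icc 0 T, ∀ i,
        Hk (m + 4) (cmp (sl w t) i) (C * Real.exp (k * t) * (R + 1))) := by
  obtain ⟨θ, C, hθ, hC, h⟩ := xenS k (m + 4) m hk (by omega) (by omega)
  obtain ⟨K0, hK0, hs⟩ := wsob (k / 16)
  set N : ℝ := (Fintype.card Ix : ℝ) * ((words (m + 4)).length : ℝ) with hN
  have hN0 : 0 ≤ N := by positivity
  set I := ∫ y, maj (k / 64) r y with hI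
  have hI0 : 0 ≤ I := integral_nonneg (maj_nn _ _)
  have hq : Integrable fun y : X3 => a y.1 * cube r y.2 := (wt_int ha).mul_prod
    ((integrable_indicator_iff (measurableSet_Icc.prod measurableSet_Icc)).2
      (integrableOn_const (isCompact_Icc.prod isCompact_Icc).measure_lt_top.ne))
  set I' := ∫ y : X3, a y.1 * cube r y.2 with hI'
  have hI1 : 0 ≤ I' := integral_nonneg fun y => mul_nonneg (ha.pos _).le (cube_nn _ _)
  refine ⟨θ, K0 * √(C * (N * 4 * I)) + C * N * (1 + I') + 1, hθ, by positivity,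
    fun K f w T ε hK hw hlo hε hf => ⟨fun hd p hp i α hα => ?_, fun h1 R hR t ht i α hα => ?_⟩⟩
  · have hm := haveI := rinv
      (maj_int (show k / 64 ≠ 0 by positivity) r).comp_add_right ((-p.2.1, 0) : X3)
    have key : ∀ (y : X3) (E : ℝ), E ≤ N * ((ε * a y.1) ^ 2 * cube r y.2) →
        ps (k / 16) p.2.1 y.1 * E ≤
          N * 2 * (ε * a p.2.1) ^ 2 * maj (k / 64) r (y + ((-p.2.1, 0) : X3)) := fun y E hE => by
      have e2 := mul_le_mul_of_nonneg_left (wt_ps hk ha p.2.1 y.1)
        (mul_nonneg (mul_nonneg hN0 (sq_nonneg ε)) (cube_nn r y.2))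
      refine (mul_le_mul_of_nonneg_left hE (ps_pos _ _ _).le).trans ?_
      simp only [maj, Prod.fst_add, Prod.snd_add, add_zero, ← sub_eq_add_neg]
      exact le_trans (le_of_eq (by ring)) (e2.trans (le_of_eq (by unfold cube; ring)))
    have h1 := h K f w T hK hf.sm hw hlo _ (ps_cd (k / 16) p.2.1) (fun y => (ps_pos _ _ y).le)
      (ps_der (by positivity) _) _ (hm.const_mul (N * 2 * (ε * a p.2.1) ^ 2))
      (fun q hq => key q.2 _ (src_en hk ha hε hf hq.1)) p.1 hp
    have hi := fun t => en_id (ps_cd (k / 16) p.2.1) hw.sm hw.cs (m + 4) t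
    have h2 := integral_mono (hi 0) (hm.const_mul (N * 2 * (ε * a p.2.1) ^ 2)) fun y =>
      key y _ (en_cube (b := fun y => ε * a y.1) hw.sm (fun i β hβ y => by
        have := hd.bd i β hβ y
        rwa [show cmp (sl w 0) i = sl (cmp w i) 0 from rfl, pdl_sl β (hw.sm i)] at this)
        hd.supp y)
    rw [integral_const_mul, int_tr _ (maj (k / 64) r), ← hI] at h1 h2
    have h3 := h1.trans (mul_le_mul_of_nonneg_left (add_le_add_left h2 _) (by positivity))
    have g1 : Good (sl (cmp w i) p.1) := ⟨sl_sm (hw.sm i) _, P354HU.cs_sl (hw.cs i) _⟩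
    have hX : 0 ≤ ε * (ex k (-1) p.1 * a p.2.1) :=
      mul_nonneg hε (mul_nonneg (Real.exp_pos _).le (ha.pos _).le)
    have h4 := hs _ p.2 (√(C * (N * 4 * I)) * (ε * (ex k (-1) p.1 * a p.2.1))) (g1.pdl α)
      fun β hβ => by
        refine n2_le_of_sq (by positivity) ?_
        refine le_trans (integral_mono (c0_mw (Real.continuous_sqrt.comp
          ((ps_cd _ p.2.1).continuous.comp continuous_fst)) ((g1.pdl α).pdl β).c0).sq (hi p.1)
          fun y => ?_) (h3.trans (le_of_eq ?_))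
        · simp only [mw, norm_smul, mul_pow, Real.norm_eq_abs, sq_abs,
            Real.sq_sqrt (ps_pos _ _ _).le]
          rw [← pdl_append, pdl_sl _ (hw.sm i)]
          exact mul_le_mul_of_nonneg_left (sq_le_en w _ i (by rw [List.length_append]; omega))
            (ps_pos _ _ _).le
        · rw [mul_pow (√_), Real.sq_sqrt (by positivity), show k / 8 * p.1 =
            -(-1 * k / 16) * p.1 + -(-1 * k / 16) * p.1 by ring, Real.exp_add, ex]
          ring
    rw [pdl_sl α (hw.sm i)] at h4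
    refine le_trans h4 ?_
    rw [← mul_assoc, mul_assoc _ ε]
    refine mul_le_mul_of_nonneg_right ?_ hX
    have : 0 ≤ C * N * (1 + I') := by positivity
    linarith
  · have h1 := h K f w T hK hf.sm hw hlo (fun _ => 1) contDiff_const (fun _ => zero_le_one)
      (fun y => by simp; positivity) _ (hq.const_mul N) (fun q hq => by
        rw [one_mul]
        refine (src_en hk ha hε hf hq.1).trans (mul_le_mul_of_nonneg_left
          (mul_le_mul_of_nonneg_right ?_ (cube_nn _ _)) hN0)
        have p1 := ha.pos q.2.1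
        have p2 := mul_le_of_le_one_left p1.le h1
        have p3 := mul_le_one₀ h1 p1.le (ha.le _)
        have p4 := mul_nonneg hε p1.le
        nlinarith) t ht
    have hi := fun t => en_id (ψ := fun _ => 1) contDiff_const hw.sm hw.cs (m + 4) t
    simp only [one_mul] at h1 hi
    rw [integral_const_mul, ← hI'] at h1
    have g := fun i t => (show Good (sl (cmp w i) t) from
      ⟨sl_sm (hw.sm i) _, P354HU.cs_sl (hw.cs i) _⟩)
    have hj : ∀ i t β, Integrable fun y => dxl β (cmp w i) (t, y) ^ 2 := fun i t β => by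
      have := ((g i t).pdl β).c0.sq
      rw [pdl_sl β (hw.sm i)] at this
      simpa [sl] using this
    have hR' : ∀ i, ∀ β : List (Fin 3), β.length ≤ m + 4 →
        ∫ y, dxl β (cmp w i) (0, y) ^ 2 ≤ R := fun i β hβ => by
      have := hR i β hβ
      rw [show cmp (sl w 0) i = sl (cmp w i) 0 from rfl, pdl_sl β (hw.sm i)] at this
      simpa [sl] using this
    have hR0 : 0 ≤ R := (integral_nonneg fun _ => sq_nonneg _).trans (hR' i [] (by simp))
    have hl : ∀ (i : Ix) (l : List (List (Fin 3))), (∀ β ∈ l, β.length ≤ m + 4) →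
        Integrable (fun y => (l.map fun β => dxl β (cmp w i) (0, y) ^ 2).sum) ∧
        ∫ y, (l.map fun β => dxl β (cmp w i) (0, y) ^ 2).sum ≤ l.length * R := by
      intro i l hl
      induction l with
      | nil => simp
      | cons β l ih =>
        obtain ⟨a1, a2⟩ := ih fun γ hγ => hl γ (List.mem_cons_of_mem _ hγ)
        simp only [List.map_cons, List.sum_cons, List.length_cons]
        refine ⟨(hj i 0 β).add a1, ?_⟩
        rw [integral_add (hj i 0 β) a1]
        push_cast
        linarith [hR' i β (hl β List.mem_cons_self)]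
    have h2 : ∫ y, en (m + 4) w (0, y) ≤ N * R := by
      unfold en
      rw [integral_finsetSum _ fun i _ => (hl i _ fun β => P354X.mem_words.1).1]
      refine (Finset.sum_le_sum fun i _ => (hl i _ fun β => P354X.mem_words.1).2).trans
        (le_of_eq ?_)
      simp [hN, mul_assoc]
    have h3 := integral_mono (hj i t α) (hi t) fun y => sq_le_en w (t, y) i hα
    rw [show cmp (sl w t) i = sl (cmp w i) t from rfl, pdl_sl α (hw.sm i)]
    simp only [sl, Real.norm_eq_abs, sq_abs]
    refine h3.trans (h1.trans ((mul_le_mul_of_nonneg_left (add_le_add_left h2 _)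
      (by positivity)).trans ?_))
    have h4 : Real.exp (k / 8 * t) ≤ Real.exp (k * t) :=
      Real.exp_le_exp.2 (mul_le_mul_of_nonneg_right (by linarith) ht.1)
    have h5 : C * N * (1 + I') ≤ K0 * √(C * (N * 4 * I)) + C * N * (1 + I') + 1 := by
      have : 0 ≤ K0 * √(C * (N * 4 * I)) := by positivity
      linarith
    have h6 := mul_le_mul_of_nonneg_right
      (mul_le_mul h5 h4 (Real.exp_pos _).le (by positivity)) (show 0 ≤ R + 1 by positivity)
    have h7 := mul_le_mul_of_nonneg_left (show R + I' ≤ (1 + I') * (R + 1) by nlinarith)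
      (show 0 ≤ C * N * Real.exp (k / 8 * t) by positivity)
    exact le_trans (le_of_eq (by ring)) (h7.trans (le_trans (le_of_eq (by ring)) h6))

end Vale.Agent.P354AS
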